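import Vale.Agent.Lib.P266.Core

/-!
The core local computation at a prime where a fixed denominator of the basis of derivations is
invertible.
-/

set_option linter.unusedSectionVars false
set_option linter.unusedSimpArgs false
set_option linter.unusedVariables false

open IsLocalRing nonZeroDivisors

namespace Vale.Agent.Lib.P266

section CoreCut

variable {k S A L K R₀ σ : Type*} [Field k] [CharZero k] [CommRing S] [IsDomain S]
  [IsNoetherianRing S]
  [CommRing A] [IsDomain A] [Algebra k A] [IsIntegrallyClosed A] [Algebra.FiniteType k A]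
  [Field L] [Algebra A L] [IsFractionRing A L] [Algebra k L] [IsScalarTower k A L]
  [Algebra S A] [Algebra S L] [IsScalarTower S A L]
  [CommRing R₀] [IsDomain R₀] [Algebra S R₀] [Algebra R₀ L] [IsScalarTower S R₀ L]
  [Fintype σ] [DecidableEq σ]

theorem core_local_cut {g : S} (hg0 : g ≠ 0) (hd : CoreData g R₀ L A)
    [(Ideal.span {g}).IsPrime] [IsLocalization.AtPrime R₀ (Ideal.span {g})]
    (x : σ → S) (pd : σ → S → S)
    (hchain : ∀ (D' : Derivation k L L) (s : S), D' (algebraMap S L s) =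
      ∑ j, algebraMap S L (pd j s) * D' (algebraMap S L (x j)))
    (i0 : σ) (hi0 : pd i0 g ∉ Ideal.span {g})
    (D : σ → Derivation k A A)
    (hind : ∀ c : σ → A, ∑ i, c i • D i = 0 → ∀ i, c i = 0)
    (u₀ : A) (hsat : ∀ D' : Derivation k A A, ∃ c : σ → A, u₀ • D' = ∑ i, c i • D i)
    (T₀ : Subalgebra R₀ L) (hT₀ : ∀ t, t ∈ T₀ ↔ IsIntegral R₀ t)
    [IsDedekindDomain T₀] [IsFractionRing T₀ L]
    (P : Ideal T₀) [hP : P.IsMaximal]
    (hgP : (⟨algebraMap S L g, (hT₀ _).mpr (isIntegral_algebraMap_S g)⟩ : T₀) ∈ P)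
    (hu₀ : (⟨algebraMap A L u₀, (hT₀ _).mpr (hd.hAint u₀)⟩ : T₀) ∉ P) :
    algebraMap A L (jacOf x D) ≠ 0 ∧ ∃ a ∈ P, ∃ b, b ∉ P ∧
      algebraMap S L g / algebraMap A L (jacOf x D) * algebraMap T₀ L b =
        algebraMap T₀ L a := by
  classical
  have hpr : P.IsPrime := hP.isPrime
  have hPle : P.primeCompl ≤ (T₀)⁰ := Ideal.primeCompl_le_nonZeroDivisors _
  let V : Subalgebra T₀ L := Localization.subalgebra.ofField L _ hPle
  have hPbot : P ≠ ⊥ := by
    intro h
    rw [h] at hgP
    have h0 : algebraMap S L g = 0 := by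
      have := congrArg (Subtype.val) (Ideal.mem_bot.mp hgP)
      simpa using this
    exact hd.hwne g hg0 h0
  have hDVRV : IsDiscreteValuationRing V :=
    IsLocalization.AtPrime.isDiscreteValuationRing_of_dedekind_domain T₀ hPbot V
  -- basic membership facts
  have hT₀V : ∀ t : L, t ∈ T₀ → t ∈ V := by
    intro t ht
    exact Subalgebra.algebraMap_mem V (⟨t, ht⟩ : T₀)
  have hintV : ∀ t : L, IsIntegral R₀ t → t ∈ V := fun t ht => hT₀V t ((hT₀ t).mpr ht)
  have hSV : ∀ s : S, algebraMap S L s ∈ V := fun s => hintV _ (isIntegral_algebraMap_S s)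
  have hAV : ∀ a : A, algebraMap A L a ∈ V := fun a => hintV _ (hd.hAint a)
  have hkV : ∀ c : k, algebraMap k L c ∈ V := by
    intro c
    rw [IsScalarTower.algebraMap_apply k A L c]
    exact hAV _
  let ψ : S →+* V := (algebraMap S L).codRestrict V hSV
  let φ : k →+* V := (algebraMap k L).codRestrict V hkV
  let ρ : R₀ →+* V := (algebraMap R₀ L).codRestrict V (fun r => hintV _ isIntegral_algebraMap)
  have hψ : ∀ s, algebraMap V L (ψ s) = algebraMap S L s := fun s => rfl
  have hφ : ∀ c, algebraMap V L (φ c) = algebraMap k L c := fun c => rfl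
  have hρ' : ∀ r, algebraMap V L (ρ r) = algebraMap R₀ L r := fun r => rfl
  let E : σ → Derivation k L L := fun i => fracExt (D i)
  have hET₀ : ∀ i t, t ∈ T₀ → E i t ∈ T₀ := by
    intro i t ht
    exact (hT₀ _).mpr (coreData_hDint hd (D i) t ((hT₀ t).mp ht))
  have hstabV : ∀ E' : Derivation k L L, (∀ t, t ∈ T₀ → E' t ∈ V) → ∀ v, v ∈ V → E' v ∈ V := by
    intro E' hE' v hv
    obtain ⟨a, b, hb, rfl⟩ := hv
    have hb0 : algebraMap T₀ L b ≠ 0 := by
      intro h0
      have : b = 0 := Subtype.ext (by simpa using h0)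
      exact hb (this ▸ P.zero_mem)
    have hbinv : (algebraMap T₀ L b)⁻¹ ∈ V := ⟨1, b, hb, by simp⟩
    have h1 : E' (algebraMap T₀ L a * (algebraMap T₀ L b)⁻¹) =
        (E' (algebraMap T₀ L a) * algebraMap T₀ L b - algebraMap T₀ L a * E' (algebraMap T₀ L b)) *
          ((algebraMap T₀ L b)⁻¹) ^ 2 := by
      rw [← div_eq_mul_inv, deriv_div_eq _ _ _ hb0, div_eq_mul_inv, inv_pow]
    rw [h1]
    have ha' : E' (algebraMap T₀ L a) ∈ V := hE' _ a.2
    have hb' : E' (algebraMap T₀ L b) ∈ V := hE' _ b.2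
    have haV : algebraMap T₀ L a ∈ V := hT₀V _ a.2
    have hbV : algebraMap T₀ L b ∈ V := hT₀V _ b.2
    exact V.mul_mem (V.sub_mem (V.mul_mem ha' hbV) (V.mul_mem haV hb')) (V.pow_mem hbinv 2)
  have hstab : ∀ i (v : V), ∃ v' : V, E i (algebraMap V L v) = algebraMap V L v' := by
    intro i v
    exact ⟨⟨E i v, hstabV (E i) (fun t ht => hT₀V _ (hET₀ i t ht)) v v.2⟩, rfl⟩
  -- independence over `L`
  have hindL : ∀ c : σ → L, ∑ i, c i • E i = 0 → ∀ i, c i = 0 := frac_independent D hind
  -- saturation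
  have hAT : ∀ a : A, algebraMap A L a ∈ T₀ := fun a => (hT₀ _).mpr (hd.hAint a)
  have hST : ∀ s : S, algebraMap S L s ∈ T₀ := fun s => (hT₀ _).mpr (isIntegral_algebraMap_S s)
  let ρA : A →+* T₀ := (algebraMap A L).codRestrict T₀ hAT
  let ρS : S →+* T₀ := (algebraMap S L).codRestrict T₀ hST
  have hρAS : ∀ s, ρA (algebraMap S A s) = ρS s := by
    intro s
    apply Subtype.ext
    exact (IsScalarTower.algebraMap_apply S A L s).symm
  have hunitP : ∀ w, w ∉ Ideal.span {g} → ρS w ∉ P := by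
    intro w hw hmem
    have hw0 : w ≠ 0 := by
      rintro rfl
      exact hw (Ideal.zero_mem _)
    let inv : T₀ := ⟨(algebraMap S L w)⁻¹, (hT₀ _).mpr (hd.hUinv w hw)⟩
    have h1 : ρS w * inv = 1 := by
      apply Subtype.ext
      exact mul_inv_cancel₀ (hd.hwne w hw0)
    have h2 : (1 : T₀) ∈ P := h1 ▸ P.mul_mem_right _ hmem
    exact hP.ne_top ((Ideal.eq_top_iff_one _).mpr h2)
  have hsatL : ∀ D' : Derivation k L L, (∀ v : V, ∃ v' : V, D' (algebraMap V L v) = algebraMap V L v') →
      ∃ d : σ → V, D' = ∑ i, (algebraMap V L (d i)) • E i := by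
    intro D' hD'
    let PA : Ideal A := P.comap ρA
    have hPAprime : PA.IsPrime := Ideal.comap_isPrime ρA P
    have hcomap : PA.comap (algebraMap S A) = Ideal.span {g} := by
      ext s
      constructor
      · intro hs
        by_contra hcon
        apply hunitP s hcon
        rw [← hρAS]
        exact hs
      · intro hs
        obtain ⟨r, rfl⟩ := Ideal.mem_span_singleton'.mp hs
        show ρA (algebraMap S A (r * g)) ∈ P
        rw [hρAS, map_mul]
        exact P.mul_mem_left _ hgP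
    have hstep1 : ∀ a : A, ∃ m, m ∉ PA ∧ ∃ a',
        algebraMap A L m * D' (algebraMap A L a) = algebraMap A L a' := by
      intro a
      obtain ⟨v', hv'⟩ := hD' ⟨algebraMap A L a, hAV a⟩
      obtain ⟨t, b, hb, hv⟩ := v'.2
      obtain ⟨w₁, hw₁, a₁, ha₁⟩ := hd.hTA t ((hT₀ _).mp t.2)
      obtain ⟨w₂, hw₂, a₂, ha₂⟩ := hd.hTA b ((hT₀ _).mp b.2)
      have hb0 : algebraMap T₀ L b ≠ 0 := by
        intro h0
        have : b = 0 := Subtype.ext (by simpa using h0)
        exact hb (this ▸ P.zero_mem)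
      refine ⟨algebraMap S A w₁ * a₂, ?_, a₁ * algebraMap S A w₂, ?_⟩
      · intro hmem
        have hmem' : ρA (algebraMap S A w₁ * a₂) ∈ P := hmem
        rw [map_mul, hρAS] at hmem'
        rcases hpr.mem_or_mem hmem' with h | h
        · exact hunitP w₁ hw₁ h
        · have h6 : ρA a₂ = ρS w₂ * b := by
            apply Subtype.ext
            exact ha₂.symm
          rw [h6] at h
          rcases hpr.mem_or_mem h with h' | h'
          · exact hunitP w₂ hw₂ h'
          · exact hb h'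
      · have hv'' : D' (algebraMap A L a) = algebraMap T₀ L t * (algebraMap T₀ L b)⁻¹ := by
          have : D' (algebraMap V L ⟨algebraMap A L a, hAV a⟩) = algebraMap V L v' := hv'
          rw [← hv]
          exact this
        rw [hv'', map_mul, map_mul, ← IsScalarTower.algebraMap_apply S A L,
          ← IsScalarTower.algebraMap_apply S A L, ← ha₁, ← ha₂]
        show (_ * (algebraMap S L w₂ * algebraMap T₀ L b)) * _ =
          algebraMap S L w₁ * algebraMap T₀ L t * algebraMap S L w₂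
        field_simp
    obtain ⟨u, hu, c, heq⟩ := frac_saturated D PA (fun D'' => by
      obtain ⟨c, hc⟩ := hsat D''
      exact ⟨u₀, hu₀, c, hc⟩) D' hstep1
    have husT : ρA u ∈ P.primeCompl := hu
    have hus0 : algebraMap A L u ≠ 0 := by
      intro h0
      have : ρA u = 0 := Subtype.ext h0
      exact husT (this ▸ P.zero_mem)
    let d : σ → V := fun i => ⟨algebraMap A L (c i) * (algebraMap A L u)⁻¹,
      ⟨ρA (c i), ρA u, husT, rfl⟩⟩
    refine ⟨d, ?_⟩
    ext y
    have h1 := congrArg (fun F : Derivation k L L => F y) heq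
    simp only [sum_smul_deriv_apply, Derivation.smul_apply, smul_eq_mul] at h1
    rw [sum_smul_deriv_apply]
    show D' y = ∑ i, (algebraMap A L (c i) * (algebraMap A L u)⁻¹) * E i y
    have h2 : D' y = (algebraMap A L u)⁻¹ * (algebraMap A L u * D' y) := by
      field_simp
    rw [h2, h1, Finset.mul_sum]
    apply Finset.sum_congr rfl
    intro i _
    show (algebraMap A L u)⁻¹ * (algebraMap A L (c i) * E i y) = _
    ring
  have hψg0 : ψ g ≠ 0 := by
    intro h
    exact hd.hwne g hg0 (by simpa [ψ] using congrArg (algebraMap V L) h)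
  have hψgm : ψ g ∈ maximalIdeal V := by
    have := (IsLocalization.AtPrime.to_map_mem_maximal_iff V P _).mpr hgP
    exact this
  have hdg : ∀ D' : Derivation k L L, D' (algebraMap V L (ψ g)) =
      ∑ j, algebraMap V L (ψ (pd j g)) * D' (algebraMap V L (ψ (x j))) := fun D' => hchain D' g
  have hψU : ∀ w, w ∉ Ideal.span {g} → ψ w ∉ maximalIdeal V := by
    intro w hw hmem
    have hw0 : w ≠ 0 := by
      rintro rfl
      exact hw (Ideal.zero_mem _)
    let inv : V := ⟨(algebraMap S L w)⁻¹, hintV _ (hd.hUinv w hw)⟩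
    have hh1 : ψ w * inv = 1 := by
      apply Subtype.ext
      exact mul_inv_cancel₀ (hd.hwne w hw0)
    exact (mem_maximalIdeal _).mp hmem (IsUnit.of_mul_eq_one _ hh1)
  have hV' : ∀ v : V, ∃ a b : V, v * b = a ∧ b ∉ maximalIdeal V ∧
      IsIntegral R₀ (algebraMap V L a) ∧ IsIntegral R₀ (algebraMap V L b) := by
    intro v
    obtain ⟨a, b, hb, hv⟩ := v.2
    have hb0 : algebraMap T₀ L b ≠ 0 := by
      intro h0
      have : b = 0 := Subtype.ext (by simpa using h0)
      exact hb (this ▸ P.zero_mem)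
    refine ⟨⟨algebraMap T₀ L a, hT₀V _ a.2⟩, ⟨algebraMap T₀ L b, hT₀V _ b.2⟩, ?_, ?_,
      (hT₀ _).mp a.2, (hT₀ _).mp b.2⟩
    · apply Subtype.ext
      show (v : L) * algebraMap T₀ L b = algebraMap T₀ L a
      rw [hv]
      field_simp
    · intro hmem
      let inv : V := ⟨(algebraMap T₀ L b)⁻¹, ⟨1, b, hb, by simp⟩⟩
      have hh1 : (⟨algebraMap T₀ L b, hT₀V _ b.2⟩ : V) * inv = 1 := by
        apply Subtype.ext
        exact mul_inv_cancel₀ hb0
      exact (mem_maximalIdeal _).mp hmem (IsUnit.of_mul_eq_one _ hh1)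
  have hlocR : IsLocalization (Ideal.span {g}).primeCompl R₀ := ‹_›
  have halg : ∀ (D' : Derivation k L L) (e : V → V),
      (∀ v, D' (algebraMap V L v) = algebraMap V L (e v)) →
      ∀ π, Irreducible π → e π ∈ maximalIdeal V →
      (∀ j, j ≠ i0 → e (ψ (x j)) ∈ maximalIdeal V) → ∀ v, e v ∈ maximalIdeal V := by
    intro D' e he π hπ h1 h2 v
    exact local_alg (g := g) Subtype.val_injective φ hφ ψ hψ ρ hρ' hψU D' e he x pd (hchain D') i0 hi0
      hψgm π hπ.maximalIdeal_eq h1 h2 hV' v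
  obtain ⟨ρ', hρ, hgρ⟩ := local_step φ hφ E hstab hindL hsatL (fun j => ψ (x j)) i0 (ψ g) hψg0 hψgm
    (fun j => ψ (pd j g)) hdg halg
  have hdet : (Matrix.of (fun i j => E i (algebraMap V L (ψ (x j))))).det =
      algebraMap A L (jacOf x D) := by
    unfold jacOf
    rw [RingHom.map_det]
    congr 1
    ext i j
    show fracExt (D i) (algebraMap S L (x j)) = algebraMap A L (D i (algebraMap S A (x j)))
    rw [IsScalarTower.algebraMap_apply S A L, fracExt_algebraMap]
  rw [hdet] at hgρ
  have hgρ' : algebraMap S L g = algebraMap A L (jacOf x D) * (ρ' : L) := hgρ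
  obtain ⟨t, b, hb, hρ''⟩ := ρ'.2
  have hb0 : algebraMap T₀ L b ≠ 0 := by
    intro h0
    have : b = 0 := Subtype.ext (by simpa using h0)
    exact hb (this ▸ P.zero_mem)
  have hp0 : algebraMap A L (jacOf x D) ≠ 0 := by
    intro h0
    rw [h0, zero_mul] at hgρ'
    exact hd.hwne g hg0 hgρ'
  have htP : t ∈ P := by
    by_contra ht
    have ht0 : algebraMap T₀ L t ≠ 0 := by
      intro h0
      have : t = 0 := Subtype.ext (by simpa using h0)
      exact ht (this ▸ P.zero_mem)
    let inv : V := ⟨algebraMap T₀ L b * (algebraMap T₀ L t)⁻¹, ⟨b, t, ht, rfl⟩⟩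
    have hh1 : ρ' * inv = 1 := by
      apply Subtype.ext
      show (ρ' : L) * (algebraMap T₀ L b * (algebraMap T₀ L t)⁻¹) = 1
      rw [hρ'']
      field_simp
    exact (mem_maximalIdeal _).mp hρ (IsUnit.of_mul_eq_one _ hh1)
  refine ⟨hp0, t, htP, b, hb, ?_⟩
  rw [hgρ', hρ'']
  field_simp

end CoreCut

end Vale.Agent.Lib.P266
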